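import Vale.Agent.P322.Glue.Final

/-!
# P322: the Courtade–Kumar conjecture

For every `n`, every Boolean function of `n` uniform bits and every crossover probability
`ε ∈ [0, 1/2]`, the mutual information between the value of the function and the output of `n`
independent binary symmetric channels is at most `1 - h₂(ε)`.
-/

namespace Vale.Agent.Results.P322.CourtadeKumar

open Vale.Agent.P322

theorem result :
    ∀ (n : ℕ) (f : (Fin n → Bool) → Bool) (ε : ℝ), 0 ≤ ε → ε ≤ 1 / 2 →
      mutualInfoBits (jointProb f ε) ≤ 1 - entropyBits ε :=
  fun n f ε h0 h1 => Vale.Agent.P322.courtadeKumar n f ε h0 h1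

end Vale.Agent.Results.P322.CourtadeKumar
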